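/-!
# Row 169: proof plan (owner helper15)

Everything is phrased with families `N : ℤ → Submodule k V` (graded torsion free modules, dehomogenised
by `ξ 0 = 1`).  `hp N t = rk N / 2 * t ^ 2 + dg N * t + ch N` is the Hilbert polynomial.
To prove an identity between `hp`s: `IsQuad.ext`/`IsQuad.eq_zero` (side goal `intro t; simp only [hp]; ring`)
plus `FG.hf_eventually` (shift with `(tendsto_atTop_add_const_right ..).eventually`).

## Hilb
* `FG.of_le`: `N = gen A {(a i, v i)}`; let `Z ≤ (Fin m → A3 k)` be the `A3`-span of the homogeneous tuples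
  `c` (`c i ∈ Form (n - a i)`) with `∑ ev (c i) • v i ∈ N' n`.  Noetherian, so finitely many such tuples
  span; take `weightedHomogeneousComponent`s (`DirectSum.coe_decompose_mul_add_of_right_mem`).
* `FG.hf_eventually`: induction on `s ≤ 3` over pairs `N' ≤ N` (both FG) such that `ξ i`, `i ≥ s`, map
  `N n` into `N' (1+n)`: `hf N - hf N'` is eventually a polynomial of degree `< s`.  Step with
  `x = ξ (s-1)`: `C = N / (N' + x N(-1))`, `Z = {v ∈ N | x v ∈ N'} / N'`,
  `h(n+1) - h(n) = h_C(n+1) - h_Z(n)`.  Apply with `N' = ⊥`.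
* `devissage`: maximal element of `{N₁ | T-module, N' ≤ N₁ ≤ N, Q N₁}`; if `≠ N` take a maximal
  `colon T N₁ j v` among `v ∈ N j \ N₁ j`; it is prime.

## Plane
* `detDen_principal`: devissage over `Pl.A` from the free family; step `N₁ ⊔ A v` with prime `P`:
  determinants of tuples of `N₁ ⊔ A v` are combinations of determinants with at most one row `v`.
  `P = (π)`: new `f` is `f π`.  (If `g = f g₁` clears `N₁ ⊔ A v` and `π ∤ g₁`: some tuple `w` of `N₁` has
  `π ∤ f det w` (else `π ∣ f` and `f/π` clears); Cramer gives `g det w • v ∈ N₁`, so `π ∣ g₁ (f det w)`.)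
  Otherwise `P` contains coprime `π', g'` and (S2) of `A` shows that `f` still works.
* `exists_locBasis`: take the tuple `w` above, `g = f det w`.

## Dual
* generators `v i`, kernel family `Z` in `Fin m → F`.  For an (S2) module `N`: `(ξ 0, ξ 1, ξ 2)` is regular on `Z`
  (`I_s Z`, `I_s = (ξ 0..ξ (s-1))`; claim_s: `∑ c l • z l ∈ I_s Z → c l ∈ I_s`, descending induction on `s`, inner
  induction on degree; claim_3 is minimality of the generators `z l`), so `Z` is free.
  `N* ≅ ker φᵀ`, `E = coker φᵀ`; `hp A n = hf A n + hf A (-n-3)` gives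
  `hp N n = hf N n + hf N* (-n-3) - hf E (-n-3)`.  `E` has codimension two (`exists_locBasis`), so
  `hp N* (-t-3) - hp N t` is a constant `≥ 0`; symmetry gives `0`; so `E` vanishes eventually.

## Curve
* primes are irrelevant, points, or curves (`IsCurve`); curve primes are locally principal: with `m = (u,v)`,
  `u ∉ q`; in `O/u` every ideal is a power of `v` (Krull intersection); Nakayama.
* `hp_sub_curve`, `cdeg_fmul`: pick `m' ∈ M' j` generating `M'` at the prime `P`; `N = M'`,
  `N' = P M' ⊔ T m'`; all primes in the devissage of `N/N'` strictly contain `P`, so are points or irrelevant.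
* `snap`: devissage from `gen T {(j, μ)}`; for `N = T` constancy in `t` from `gen T {(1, 1)} ≤ T`.

## Frob
* `hp_psi`: devissage from a free family; a prime step contributes `hp M - hp (M P^[p])` at `p (t - j)`,
  which is `p^2 (hp T - hp P)(t - j)`: points by `hp_sub_of_point` and `FrobBasis`, curves by
  `∑_{i<p} (hp T - hp P + j cdeg 𝔡 + i cdeg P)` and `adjunction`.

## Slope
semistable `Q` in `Fin r → K` ⇒ `psi Q` has slopes `≤ μ + (r-1)(c+1)` (maximisers of `dg W - λ rk W`,
pigeonhole on `λ_i = μ + i (c+1)`, `w ↦ ∇ w mod W` is `K`-linear, descent); `F`-slopes `≤ K`-slopes `+ c`;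
`hp_le_h0_add_h2`, `hf_le_of_slope`, `dg_res_dual` bound `hp (psi Q) n`; induction on Harder-Narasimhan steps.

## PartI
`𝕄 = Fin ρ → Frac Â` is a `K`-module through `θ` (`Θ (a / ev f) = f⁻¹ θ a`), `τ` = multiplication by `X 0`,
`M = Â^ρ`, `G i` = order `≥ i`, `Λ_G` = `F`-span of the `τ^{-i} G i`.  Lattices: `K`-subspaces `Λ` with
`τ Λ ≤ Λ`, `τ^c Λ_G ≤ Λ ≤ τ^{-c} Λ_G`.  `V = Λ / τ Λ`, `N i` = image of `τ^{-i} M ∩ Λ`,
`hf N i = ℓ(F^{i+1}) - ℓ(F^i)`, `F^i = M ∩ τ^i Λ`, `ℓ` = codimension in `M`.  After a shift `G i ≤ F^i ≤ G (i-c)`;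
`S_j e` = leading forms of `F^{e+j+1} ∩ G e`; `hf N i = hf A^ρ i - ∑_j (hf S_j (i-j) - hf S_j (i-j-1))`,
`dg S_j ≤ 3/2 rk S_j`, `∑ j ρ_j ≥ s^2/(2ρ) - s/2` give `Phi ≥ -ρ/8`.  `8 ρ Phi ∈ ℤ`, minimise; for `W ≤ V`
the preimage `Λ_W` has `hf N' i = hf S i + hf N (i+1) - hf S (i+1)`, `S = res N W`, whence `Window`.

## Transfer
replace `N` by its bidual, `exists_resol`, lift `g i` to matrices `θ i` of forms; `Λ₀ ⊆ k` the subring generated
by all coefficients.  `V' = (Fin m → F') / range φ`, `N' = gen {(a i, e i)}` (`Resol.hf_eq`).  Matrices `R` over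
`A3 Λ₀` killing `V` satisfy `ev R = ev (φ χ₀ R)` hence kill `V'` (`exists_form_aeval_eq`).  A destabilising quotient
gives `(J₀, b, f, Ξ, Ξ_J)` with `Ξ φ = 0`, `Ξ|J₀ = f`, `f Ξ θ = (Ξ θ)|J₀ Ξ`, `det Ξ|J = f^(q-1) Ξ_J`, one coefficient
of `f` equal to `1` (`detDen_principal`); finitely many shapes; no solution over `k` ⇒ the universal
`Λ₀`-algebra kills some `λ ≠ 0`; take a maximal ideal of `Λ₀[1/(λ p₀!)]`.

## ExY2
at a point some `a i * b j` (`i, j ∈ {i0, i1}`) is a unit `y`; `α l = a l * b j / y`, `β l = a i * b l / y`, values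
`c l`, `d l`; at most one `c l` vanishes; `(α l - c l)_l` is principal (`η = W - W₀` or `α l₀`).  There is `κ*` such
that for `κ ≠ κ*` one of `h κ ±` is a unit and each of `h κ* ±` is a unit or a regular parameter; a set `S₀` of
the right parity generates.  `I = h M²`, `I' = (h_S, |S| odd)`, `I I' = δ T(-2) = I ⊓ I'` locally,
`I ⊔ I' ≤ J l = a l • Bi (-1) 0 ⊔ b l • Bi 0 (-1)`, the `J l` are pairwise comaximal, `hp T - hp (J l) ≥ 2^60`;
`4 inter M M = inter I I = 2 dg(T/I) - inter I I' ≤ (8 - 32) 2^60`.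

## Cover
`fpow T_X 𝔡 j = (M^j ⊕ σ M^(j+1))(-jν)`, `hp_fpow`, and `snap` with `N = fdiv ω M` plus `Gor.hp_dual` give
`κ = - j (j+1) inter M M`.
-/
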